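import Vale.Agent.P263C25.Rows

/-! P263C, row `COL`: the collars of the double. -/

set_option linter.all false

open Topology Set OnePoint CategoryTheory

namespace Vale.Agent.P263C24

open Vale.Agent.P263 Vale.Agent.P263.FR Vale.Agent.P263C25

/-- the collar parameter -/
noncomputable def tb (b : Bool) (σ : ℝ) : ℝ := 1 / 2 + (2 * en b - 1) * (√(1 - 4 * σ ^ 2) / 2)

theorem continuous_tb (b : Bool) : Continuous (tb b) := by
  unfold tb
  fun_prop

theorem tb_spec (b : Bool) {σ : ℝ} (h : σ ^ 2 < 3 / 16) :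
    |tb b σ - en b| < 1 / 4 ∧ σ ^ 2 = tb b σ - tb b σ ^ 2 := by
  have h0 := sq_nonneg σ
  have h1 : √(1 - 4 * σ ^ 2) ^ 2 = 1 - 4 * σ ^ 2 := Real.sq_sqrt (by linarith)
  have h2 : 1 / 2 < √(1 - 4 * σ ^ 2) := Real.lt_sqrt_of_sq_lt (by linarith)
  have h3 : √(1 - 4 * σ ^ 2) ≤ 1 := Real.sqrt_le_one.2 (by linarith)
  cases b <;> simp only [tb, en, cond_true, cond_false, abs_lt] <;>
    refine ⟨⟨by linarith, by linarith⟩, by linear_combination (1 / 4) * h1⟩

theorem tb_eq (b : Bool) {t σ : ℝ} (h : |t - en b| < 1 / 4) (hs : σ ^ 2 = t - t ^ 2) :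
    tb b σ = t ∧ σ ^ 2 < 3 / 16 := by
  have h1 : 1 - 4 * σ ^ 2 = (1 - 2 * t) ^ 2 := by rw [hs]; ring
  unfold tb
  rw [h1, Real.sqrt_sq_eq_abs, hs]
  cases b <;> simp only [en, cond_true, cond_false, abs_lt] at h ⊢
  · rw [abs_of_nonneg (by linarith [h.2])]
    exact ⟨by ring, by nlinarith [h.1, h.2]⟩
  · rw [abs_of_nonpos (by linarith [h.1])]
    exact ⟨by ring, by nlinarith [h.1, h.2]⟩

theorem tb_zero (b : Bool) : tb b 0 = en b :=
  (tb_eq b (t := en b) (by simp) (by cases b <;> simp [en])).1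

/-- the clamp -/
noncomputable def cp (t : ℝ) : ℝ := max (1 / 8) (min t (7 / 8))

theorem continuous_cp : Continuous cp := by
  unfold cp
  fun_prop

theorem cp_pos (t : ℝ) : 0 < cp t - cp t ^ 2 := by
  have h1 : 1 / 8 ≤ cp t := le_max_left _ _
  have h2 : cp t ≤ 7 / 8 := max_le (by norm_num) (min_le_right _ _)
  nlinarith

theorem cp_en (b : Bool) : |cp (en b) - en b| < 1 / 4 := by
  cases b <;> simp only [cp, en, cond_true, cond_false] <;> norm_num [abs_lt]

theorem cp_cases {t : ℝ} (h0 : 0 ≤ t) (h1 : t ≤ 1) :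
    cp t = t ∨ ∃ b, |t - en b| ≤ 1 / 4 ∧ |cp t - en b| ≤ 1 / 4 := by
  rcases le_total t (1 / 8) with h | h
  · refine Or.inr ⟨false, ?_⟩
    have : cp t = 1 / 8 := max_eq_left ((min_le_left _ _).trans h)
    rw [this]
    simp only [en, cond_false, abs_le]
    exact ⟨⟨by linarith, by linarith⟩, by norm_num, by norm_num⟩
  · rcases le_total t (7 / 8) with h' | h'
    · exact Or.inl (by unfold cp; rw [min_eq_left h', max_eq_right h])
    · refine Or.inr ⟨true, ?_⟩
      have : cp t = 7 / 8 := by unfold cp; rw [min_eq_right h', max_eq_right (by norm_num)]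
      rw [this]
      simp only [en, cond_true, abs_le]
      exact ⟨⟨by linarith, by linarith⟩, by norm_num, by norm_num⟩

variable {m K : ℕ} {F : Bool → (ST.Sph m ⟶ ST.Sph K)} (T : Fam F)

theorem up (b : Bool) (v : Mfd (F b)) {t : ℝ} (ht : |t - en b| ≤ 1 / 4) :
    (v.1, t) ∈ T.C ∧ T.g (v.1, t) = 0 := by
  obtain ⟨h1, h2⟩ := T.eqO b v.1 t (T.zO b v) ht
  exact ⟨T.sub h1, OnePoint.coe_injective (h2.symm.trans v.2)⟩

/-- a point of the collar -/
noncomputable def kap (b : Bool) (v : Mfd (F b)) (σ : ℝ) (h : σ ^ 2 < 3 / 16) : T.M :=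
  ⟨((v.1, tb b σ), σ), (up T b v (tb_spec b h).1.le).1, (up T b v (tb_spec b h).1.le).2,
    (tb_spec b h).2⟩

theorem continuous_kap {X : Type} [TopologicalSpace X] (b : Bool) {v : X → Mfd (F b)}
    {σ : X → ℝ} (hv : Continuous v) (hσ : Continuous σ) (h : ∀ x, σ x ^ 2 < 3 / 16) :
    Continuous fun x => kap T b (v x) (σ x) (h x) :=
  (((continuous_subtype_val.comp hv).prodMk ((continuous_tb b).comp hσ)).prodMk hσ).subtype_mk _

/-- the collars -/
def UU (b : Bool) : Set T.M := {x | |x.1.1.2 - en b| < 1 / 4}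

theorem cval : Continuous fun x : T.M => x.1 := continuous_subtype_val

theorem z316 : (0 : ℝ) ^ 2 < 3 / 16 := by norm_num

/-- the inclusion of the ends -/
noncomputable def io (b : Bool) : C(Mfd (F b), T.M) :=
  ⟨fun v => kap T b v 0 z316,
    continuous_kap T b (σ := fun _ => 0) continuous_id continuous_const fun _ => z316⟩

/-- the projection of the collar -/
def pr (b : Bool) : C(UU T b, Mfd (F b)) :=
  ⟨fun x => ⟨x.1.1.1.1, T.zero b _ x.1.1.1.2 x.1.2.1 (le_of_lt x.2) x.1.2.2.1⟩,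
    ((cval T).comp continuous_subtype_val).fst.fst.subtype_mk _⟩

theorem kap_pr (b : Bool) (x : UU T b) {σ : ℝ} (h : σ ^ 2 < 3 / 16) (e : σ = x.1.1.2) :
    kap T b (pr T b x) σ h = x.1 := by
  subst e
  refine Subtype.ext (Prod.ext (Prod.ext rfl ?_) rfl)
  exact (tb_eq b x.2 x.1.2.2.2).1

theorem fold_mem (x : T.M) : (x.1.1.1, cp x.1.1.2) ∈ T.C ∧ T.g (x.1.1.1, cp x.1.1.2) = 0 := by
  obtain ⟨⟨⟨z, t⟩, s⟩, h1, h2, h3⟩ := x
  have h4 : 0 ≤ t - t ^ 2 := h3 ▸ sq_nonneg s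
  rcases cp_cases (t := t) (by nlinarith) (by nlinarith) with h | ⟨b, h, h'⟩
  · simp only [h]
    exact ⟨h1, h2⟩
  · exact up T b ⟨z, T.zero b z t h1 h h2⟩ h'

/-- the folds -/
noncomputable def fold (ε : ℝ) (hε : ε ^ 2 = 1) : C(T.M, T.M) :=
  ⟨fun x => ⟨((x.1.1.1, cp x.1.1.2), ε * √(cp x.1.1.2 - cp x.1.1.2 ^ 2)), (fold_mem T x).1,
      (fold_mem T x).2, by
        simp only
        rw [mul_pow, hε, one_mul, Real.sq_sqrt (cp_pos _).le]⟩, by
    have h := continuous_cp.comp (cval T).fst.snd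
    exact (((cval T).fst.fst.prodMk h).prodMk
      (continuous_const.mul (h.sub (h.pow 2)).sqrt)).subtype_mk _⟩

theorem jj_mem (ε : ℝ) (hε : ε ^ 2 = 1) (b : Bool) (v : Mfd (F b)) :
    fold T ε hε (io T b v) ∈ UU T b := by
  change |cp (tb b 0) - en b| < 1 / 4
  rw [tb_zero]
  exact cp_en b

/-- the ends pushed into a half -/
noncomputable def jj (ε : ℝ) (hε : ε ^ 2 = 1) (b : Bool) : C(Mfd (F b), UU T b) :=
  ⟨fun v => ⟨fold T ε hε (io T b v), jj_mem T ε hε b v⟩,
    ((fold T ε hε).continuous.comp (io T b).continuous).subtype_mk (jj_mem T ε hε b)⟩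

theorem sq_lt {τ a : ℝ} (h1 : τ ^ 2 ≤ 1) (h : a ^ 2 < 3 / 16) : (τ * a) ^ 2 < 3 / 16 := by
  rw [mul_pow]
  nlinarith [sq_nonneg a, sq_nonneg τ]

theorem hom_h (b : Bool) :
    ((io T b).comp (pr T b)).Homotopic (⟨Subtype.val, continuous_subtype_val⟩ : C(UU T b, T.M)) := by
  have hb : ∀ p : unitInterval × UU T b, ((p.1 : ℝ) * p.2.1.1.2) ^ 2 < 3 / 16 := fun p =>
    sq_lt (pow_le_one₀ p.1.2.1 p.1.2.2) (tb_eq b p.2.2 p.2.1.2.2.2).2
  refine ⟨⟨⟨fun p => kap T b (pr T b p.2) _ (hb p), continuous_kap T b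
    ((pr T b).continuous.comp continuous_snd) ((continuous_subtype_val.comp continuous_fst).mul
      ((cval T).comp (continuous_subtype_val.comp continuous_snd)).snd) hb⟩, ?_, ?_⟩⟩
  · intro x
    have e : ∀ (σ : ℝ) (h : σ ^ 2 < 3 / 16), σ = 0 →
        kap T b (pr T b x) σ h = kap T b (pr T b x) 0 z316 := by
      rintro _ h rfl
      rfl
    exact e _ (hb (0, x)) (zero_mul _)
  · intro x
    exact kap_pr T b x (hb (1, x)) (one_mul _)

theorem hom_j (b : Bool) : (jj T 1 (by norm_num) b).Homotopic (jj T (-1) (by norm_num) b) := by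
  let a : ℝ := √(cp (tb b 0) - cp (tb b 0) ^ 2)
  have h1 : |cp (tb b 0) - en b| < 1 / 4 := by rw [tb_zero]; exact cp_en b
  have h2 : a ^ 2 = cp (tb b 0) - cp (tb b 0) ^ 2 := Real.sq_sqrt (cp_pos _).le
  have hb : ∀ p : unitInterval × Mfd (F b), ((1 - 2 * (p.1 : ℝ)) * a) ^ 2 < 3 / 16 := fun p =>
    sq_lt (by nlinarith [p.1.2.1, p.1.2.2]) (tb_eq b h1 h2).2
  have key : ∀ (ε : ℝ) (hε : ε ^ 2 = 1) (v : Mfd (F b)) (σ : ℝ) (h : σ ^ 2 < 3 / 16),
      σ = ε * a → kap T b v σ h = fold T ε hε (io T b v) := by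
    rintro ε hε v _ h rfl
    refine Subtype.ext (Prod.ext (Prod.ext rfl ?_) rfl)
    exact (tb_eq b h1 (by rw [mul_pow, hε, one_mul, h2])).1
  refine ⟨⟨⟨fun p => ⟨kap T b p.2 _ (hb p), (tb_spec b (hb p)).1⟩, (continuous_kap T b
    continuous_snd ((continuous_const.sub (continuous_const.mul
      (continuous_subtype_val.comp continuous_fst))).mul continuous_const) hb).subtype_mk _⟩,
    fun v => Subtype.ext (key 1 (by norm_num) v _ (hb (0, v)) ?_),
    fun v => Subtype.ext (key (-1) (by norm_num) v _ (hb (1, v)) ?_)⟩⟩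
  · change (1 - 2 * (0 : ℝ)) * a = _
    ring
  · change (1 - 2 * (1 : ℝ)) * a = _
    ring

theorem col : COL := by
  intro m K F T
  refine ⟨{ ι := io T, s := ⟨fun x => x.1.2, (cval T).snd⟩, U := UU T, oU := fun b => ?_,
            dis := ?_, zero := fun x hx => ?_, π := pr T, s0 := fun b x hx => ?_, h := hom_h T,
            Pp := fold T 1 (by norm_num), Pm := fold T (-1) (by norm_num),
            sp := fun x => ?_, sm := fun x => ?_,
            jp := jj T 1 (by norm_num), jm := jj T (-1) (by norm_num),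
            jp_eq := fun _ _ => rfl, jm_eq := fun _ _ => rfl, πp := fun _ _ => rfl,
            hj := hom_j T }, fun b v => ?_⟩
  · exact isOpen_lt ((cval T).fst.snd.sub continuous_const).abs continuous_const
  · refine Set.disjoint_left.2 fun x h0 h1 => ?_
    have h2 : |x.1.1.2 - 0| < 1 / 4 := h0
    have h3 : |x.1.1.2 - 1| < 1 / 4 := h1
    linarith [(abs_lt.1 h2).2, (abs_lt.1 h3).1]
  · have h1 : x.1.2 = 0 := hx
    have h2 := x.2.2.2
    rw [h1] at h2
    have h3 : x.1.1.2 * (1 - x.1.1.2) = 0 := by linear_combination -h2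
    rcases mul_eq_zero.1 h3 with h | h
    · refine ⟨false, ?_⟩
      change |x.1.1.2 - 0| < 1 / 4
      rw [h]
      norm_num
    · refine ⟨true, ?_⟩
      change |x.1.1.2 - 1| < 1 / 4
      rw [abs_sub_comm, h]
      norm_num
  · exact kap_pr T b x z316 (Eq.symm hx)
  · exact mul_pos one_pos (Real.sqrt_pos.2 (cp_pos _))
  · exact mul_neg_of_neg_of_pos neg_one_lt_zero (Real.sqrt_pos.2 (cp_pos _))
  · change ((v.1, tb b 0), (0 : ℝ)) = _
    rw [tb_zero]

end Vale.Agent.P263C24
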